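import Mathlib

/-!
# P047 (Gopalan-Servedio conjecture is false): definitions

Cube `ι → Bool` (`true` = coordinate `-1`).  `mono S` = AND monomial, `chi S` = character.
Abstract part: `Q` finite set of points, `J` finite set of columns, `A : Q → J → ℤ` an integer matrix.
All quantities are taken modulo `1` (so cosines are `cos (π t)`).
-/

open Finset

namespace P047F

/-- distance to the nearest integer -/
noncomputable def dz (t : ℝ) : ℝ := |t - round t|

section Abstract

variable {Q J : Type} [Fintype Q] [Fintype J]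

/-- `ev A c x = Σ_j A x j c_j` (the point `θ_c` of the torus evaluated at `x`) -/
noncomputable def ev (A : Q → J → ℤ) (c : J → ℝ) (x : Q) : ℝ := ∑ j, (A x j : ℝ) * c j

/-- energy of `c` on the set `Y` -/
noncomputable def En (A : Q → J → ℤ) (Y : Finset Q) (c : J → ℝ) : ℝ :=
  ∑ x ∈ Y, dz (ev A c x) ^ 2

/-- `Y` is `κ`-nice: the energy on `Y` is at least `κ` times the whole energy, for ALL `c` -/
def Nice (A : Q → J → ℤ) (Y : Finset Q) (κ : ℝ) : Prop :=
  ∀ c : J → ℝ, κ * En A Finset.univ c ≤ En A Y c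

/-- the points of energy at most `M` are covered, modulo integer vectors, by `exp (δ M)` sup-norm
balls of radius `r` -/
def Cover (A : Q → J → ℤ) (δ r : ℝ) : Prop :=
  ∀ M : ℝ, 0 ≤ M → ∃ C : Finset (J → ℝ), (C.card : ℝ) ≤ Real.exp (δ * M) ∧
    ∀ c : J → ℝ, En A Finset.univ c ≤ M →
      ∃ c0 ∈ C, ∃ k : J → ℤ, ∀ x, |ev A (fun j => c j - c0 j - (k j : ℝ)) x| ≤ r

/-- the hypotheses on the matrix used in Parts II and III -/
structure Good (A : Q → J → ℤ) (δ r : ℝ) : Prop where
  inj : ∀ c : J → ℝ, (∀ x, ev A c x = 0) → c = 0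
  lev : ∀ (c : J → ℝ) (x : Q), ev A c x ^ 2 ≤ δ * ∑ y, ev A c y ^ 2
  cov : Cover A δ r

end Abstract

section CubeDefs

variable {ι : Type} [Fintype ι] [DecidableEq ι]

/-- AND monomial -/
def mono (S : Finset ι) (x : ι → Bool) : ℤ := if ∀ i ∈ S, x i = true then 1 else 0

/-- character -/
def chi (S : Finset ι) (x : ι → Bool) : ℤ := ∏ i ∈ S, (if x i then (-1 : ℤ) else 1)

/-- index set of the monomials of degree at most `m` -/
abbrev Idx (ι : Type) (m : ℕ) : Type := {S : Finset ι // S.card ≤ m}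

/-- the matrix of AND monomials of degree at most `m` -/
def monoA (ι : Type) [Fintype ι] [DecidableEq ι] (m : ℕ) (x : ι → Bool) (S : Idx ι m) : ℤ :=
  mono S.1 x

/-- degree at most `d` (Fourier coefficients above `d` vanish) -/
def DegLe (d : ℕ) (f : (ι → Bool) → ℝ) : Prop :=
  ∀ T : Finset ι, d < T.card → ∑ x, f x * (chi T x : ℝ) = 0

/-- sum of the degree one Fourier coefficients -/
noncomputable def S1 (f : (ι → Bool) → ℝ) : ℝ :=
  (∑ x, f x * ∑ i : ι, (chi {i} x : ℝ)) / 2 ^ (Fintype.card ι)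

/-- `f` takes values in `{-1,1}` -/
def IsBool (f : (ι → Bool) → ℝ) : Prop := ∀ x, f x = 1 ∨ f x = -1

end CubeDefs

/-- the codimension-type parameter `m = ⌊73 n / 200⌋` -/
def mm (n : ℕ) : ℕ := 73 * n / 200

/-- the degree `n - m - 1` -/
def dd (n : ℕ) : ℕ := n - mm n - 1

end P047F
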