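import Vale.Agent.Lib.P047F.Interface

/-!
# P047F Fin1: from Parts IV and V to one Boolean function beating the square root bound
-/

open Finset Filter

namespace P047F

theorem sqrt_two_div_pi_ge : (79788 : ℝ) / 100000 ≤ Real.sqrt (2 / Real.pi) := by
  apply Real.le_sqrt_of_sq_le
  rw [le_div_iff₀ Real.pi_pos]
  have := Real.pi_lt_d6
  nlinarith

theorem exists_beat (hIV : PartIV) (hV : PartV) :
    ∃ (n d : ℕ) (f : (Fin n → Bool) → ℝ), IsBool f ∧ DegLe d f ∧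
      Real.sqrt ((d : ℝ) + 1) < S1 f := by
  obtain ⟨n1, h1⟩ := hIV (1 / 4000) (by norm_num)
  obtain ⟨n2, h2⟩ := hV (1 / 4000) (by norm_num)
  let n := n1 + n2 + 3000
  obtain ⟨F, hF1, hF2, hF3⟩ := h2 n (by omega)
  obtain ⟨f, hf1, hf2, hf3⟩ := h1 n (by omega) F hF1 hF2
  refine ⟨n, dd n, f, hf1, hf2, lt_of_lt_of_le ?_ hf3⟩
  have hn : (3000 : ℝ) ≤ (n : ℝ) := by
    have : 3000 ≤ n := by omega
    exact_mod_cast this
  have hs : Real.sqrt (2 * (n : ℝ) / Real.pi) = Real.sqrt (2 / Real.pi) * Real.sqrt n := by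
    rw [← Real.sqrt_mul (by positivity)]
    congr 1
    ring
  rw [hs] at hF3
  have hsn : 0 ≤ Real.sqrt (n : ℝ) := Real.sqrt_nonneg _
  have hlow : (7974 : ℝ) / 10000 * Real.sqrt n ≤ S1 F - 1 / 4000 * Real.sqrt n := by
    have h := sqrt_two_div_pi_ge
    have : (1 - 1 / 4000) * ((79788 : ℝ) / 100000 * Real.sqrt n) ≤
        (1 - 1 / 4000) * (Real.sqrt (2 / Real.pi) * Real.sqrt n) := by
      apply mul_le_mul_of_nonneg_left _ (by norm_num)
      exact mul_le_mul_of_nonneg_right h hsn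
    nlinarith
  refine lt_of_lt_of_le ?_ hlow
  have hd : ((dd n : ℕ) : ℝ) + 1 ≤ 127 / 200 * (n : ℝ) + 1 := by
    have h3 : 200 * dd n ≤ 127 * n := by
      unfold dd mm
      omega
    have h4 : (200 : ℝ) * (dd n : ℝ) ≤ 127 * (n : ℝ) := by exact_mod_cast h3
    linarith
  rw [Real.sqrt_lt' (by positivity)]
  rw [mul_pow, Real.sq_sqrt (by positivity)]
  nlinarith

end P047F
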