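import Mathlib

/-!
# P047: definitions used in the statement

The cube `{-1,1}^n` is `Fin n → ℤˣ` (the units of `ℤ` are `1` and `-1`).
-/

namespace P047F

/-- the Fourier coefficient `f^(S) = E[f(X) ∏_{i ∈ S} X_i]`, `X` uniform on `{-1,1}^n` -/
noncomputable def fourier {n : ℕ} (f : (Fin n → ℤˣ) → ℝ) (S : Finset (Fin n)) : ℝ :=
  (∑ x : Fin n → ℤˣ, f x * ∏ i ∈ S, ((x i : ℤ) : ℝ)) / 2 ^ n

open Classical in
/-- the degree: the largest `|S|` with `f^(S) ≠ 0` (`0` for constants) -/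
noncomputable def degree {n : ℕ} (f : (Fin n → ℤˣ) → ℝ) : ℕ :=
  (Finset.univ.filter (fun S : Finset (Fin n) => fourier f S ≠ 0)).sup Finset.card

/-- Boolean function: values in `{-1,1}` -/
def IsBoolean {n : ℕ} (f : (Fin n → ℤˣ) → ℝ) : Prop := ∀ x, f x = 1 ∨ f x = -1

/-- `Σ_i f^({i})` -/
noncomputable def linearSum {n : ℕ} (f : (Fin n → ℤˣ) → ℝ) : ℝ := ∑ i : Fin n, fourier f {i}

end P047F
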