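import Vale.Agent.Lib.P047F.Defs
import Vale.Agent.Lib.P047F.Statement

/-!
# P047F Fin2: transport from `Fin n → Bool` to `Fin n → ℤˣ`
-/

open Finset

namespace P047F

/-- `true ↦ -1`, `false ↦ 1` -/
def sgnU (b : Bool) : ℤˣ := if b then -1 else 1

theorem sgnU_bij : Function.Bijective sgnU := by
  constructor
  · intro a b h
    cases a <;> cases b <;> simp_all [sgnU] <;> exact absurd h (by decide)
  · intro u
    rcases Int.units_eq_one_or u with h | h
    · exact ⟨false, by simp [sgnU, h]⟩
    · exact ⟨true, by simp [sgnU, h]⟩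

/-- the equivalence of cubes -/
noncomputable def cubeE (n : ℕ) : (Fin n → Bool) ≃ (Fin n → ℤˣ) :=
  Equiv.piCongrRight (fun _ => Equiv.ofBijective sgnU sgnU_bij)

theorem cubeE_apply {n : ℕ} (x : Fin n → Bool) (i : Fin n) : cubeE n x i = sgnU (x i) := rfl

theorem fourier_transport {n : ℕ} (f : (Fin n → Bool) → ℝ) (S : Finset (Fin n)) :
    fourier (fun x => f ((cubeE n).symm x)) S = (∑ x, f x * (chi S x : ℝ)) / 2 ^ n := by
  unfold fourier
  congr 1
  rw [← Equiv.sum_comp (cubeE n)]
  apply Finset.sum_congr rfl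
  intro x _
  simp only [Equiv.symm_apply_apply]
  congr 1
  unfold chi
  push_cast
  apply Finset.prod_congr rfl
  intro i _
  rw [cubeE_apply]
  cases x i <;> simp [sgnU]

theorem exists_units {n d : ℕ} {f : (Fin n → Bool) → ℝ} (hb : IsBool f) (hd : DegLe d f) :
    ∃ g : (Fin n → ℤˣ) → ℝ, IsBoolean g ∧ degree g ≤ d ∧ linearSum g = S1 f := by
  refine ⟨fun x => f ((cubeE n).symm x), fun x => hb _, ?_, ?_⟩
  · classical
    unfold degree
    apply Finset.sup_le
    intro S hS
    rw [Finset.mem_filter] at hS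
    by_contra hc
    apply hS.2
    rw [fourier_transport, hd S (by omega), zero_div]
  · unfold linearSum S1
    simp only [fourier_transport, Fintype.card_fin]
    rw [← Finset.sum_div]
    congr 1
    rw [Finset.sum_comm]
    apply Finset.sum_congr rfl
    intro x _
    rw [Finset.mul_sum]

end P047F
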