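import Vale.Agent.Lib.P047F.Statement

/-!
# P047F Fin3: the growth `K d^(1/2+c)` disproves the weak (hence the strong) conjecture
-/

open Finset

namespace P047F

theorem no_const_of_growth (h : ∃ c : ℝ, 0 < c ∧ ∃ K : ℝ, 0 < K ∧ ∀ d : ℕ, 1 ≤ d →
    ∃ (n : ℕ) (f : (Fin n → ℤˣ) → ℝ), IsBoolean f ∧ degree f ≤ d ∧
      K * (d : ℝ) ^ (1 / 2 + c) ≤ linearSum f) :
    ¬ ∃ C : ℝ, ∀ (n : ℕ) (f : (Fin n → ℤˣ) → ℝ), IsBoolean f →
      linearSum f ≤ C * Real.sqrt (degree f) := by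
  rintro ⟨C, hC⟩
  obtain ⟨c, hc, K, hK, h⟩ := h
  have hC0 : 0 ≤ max C 0 := le_max_right _ _
  -- choose `d` with `K d^c > max C 0`
  have ht : Filter.Tendsto (fun d : ℕ => K * (d : ℝ) ^ c) Filter.atTop Filter.atTop :=
    Filter.Tendsto.const_mul_atTop hK
      ((tendsto_rpow_atTop hc).comp tendsto_natCast_atTop_atTop)
  obtain ⟨d, hd1, hd2⟩ := ((ht.eventually_gt_atTop (max C 0)).and
    (Filter.eventually_ge_atTop 1)).exists
  obtain ⟨n, f, hf1, hf2, hf3⟩ := h d hd2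
  have h1 := hC n f hf1
  have hdpos : (0 : ℝ) < (d : ℝ) := by exact_mod_cast hd2
  have h2 : linearSum f ≤ max C 0 * Real.sqrt d := by
    refine h1.trans ?_
    refine (mul_le_mul_of_nonneg_right (le_max_left C 0) (Real.sqrt_nonneg _)).trans ?_
    refine mul_le_mul_of_nonneg_left (Real.sqrt_le_sqrt ?_) hC0
    exact_mod_cast hf2
  have h3 : K * (d : ℝ) ^ (1 / 2 + c) = K * (d : ℝ) ^ c * Real.sqrt d := by
    rw [Real.rpow_add hdpos, Real.sqrt_eq_rpow]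
    ring
  rw [h3] at hf3
  have h4 : 0 < Real.sqrt (d : ℝ) := Real.sqrt_pos.2 hdpos
  have h5 := lt_of_lt_of_le (mul_lt_mul_of_pos_right hd1 h4) (hf3.trans h2)
  exact lt_irrefl _ h5

theorem no_one_of_growth (h : ∃ c : ℝ, 0 < c ∧ ∃ K : ℝ, 0 < K ∧ ∀ d : ℕ, 1 ≤ d →
    ∃ (n : ℕ) (f : (Fin n → ℤˣ) → ℝ), IsBoolean f ∧ degree f ≤ d ∧
      K * (d : ℝ) ^ (1 / 2 + c) ≤ linearSum f) :
    ¬ ∀ (n : ℕ) (f : (Fin n → ℤˣ) → ℝ), IsBoolean f →
      linearSum f ≤ Real.sqrt (degree f) := by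
  intro hs
  refine no_const_of_growth h ⟨1, fun n f hf => ?_⟩
  rw [one_mul]
  exact hs n f hf

end P047F
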