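import Vale.Agent.Lib.P047F.I.Asm
import Vale.Agent.Lib.P047F.IA.Main
import Vale.Agent.Lib.P047F.IB.Main
import Vale.Agent.Lib.P047F.IB.Base
import Vale.Agent.Lib.P047F.IC.Main
import Vale.Agent.Lib.P047F.II.Main
import Vale.Agent.Lib.P047F.III.Main
import Vale.Agent.Lib.P047F.IV.Main
import Vale.Agent.Lib.P047F.V.Main
import Vale.Agent.Lib.P047F.VI.Main
import Vale.Agent.Lib.P047F.Fin1
import Vale.Agent.Lib.P047F.Fin2
import Vale.Agent.Lib.P047F.Fin3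

/-!
# P047F: final assembly
-/

open Finset

namespace P047F

theorem partIIb_of_partSG (h : PartSG) : PartIIb := by
  intro κ hκ hκ1
  obtain ⟨n0, hn0⟩ := h κ hκ hκ1
  refine ⟨n0, fun n hn Q J _ _ A hc hA Y hY hpar => ?_⟩
  obtain ⟨hpos, hsub⟩ := hn0 n hn Q J A hc hA Y hY hpar
  refine ⟨Valid A Y, Finset.card_pos.1 hpos, fun z hz => (mem_Valid A Y z).1 hz, fun g => ?_⟩
  refine le_trans (le_of_eq ?_) (hsub g)
  refine Finset.sum_congr rfl fun z hz => ?_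
  congr 1
  symm
  refine Finset.sum_subset (Finset.subset_univ Y) fun x _ hx => ?_
  rw [((mem_Valid A Y z).1 hz).2.1 x hx]
  simp

theorem growth_bool : ∃ c : ℝ, 0 < c ∧ ∃ K : ℝ, 0 < K ∧ ∀ d : ℕ, 1 ≤ d →
    ∃ (n : ℕ) (f : (Fin n → Bool) → ℝ), IsBool f ∧ DegLe d f ∧
      K * (d : ℝ) ^ (1 / 2 + c) ≤ S1 f :=
  partVI (exists_beat (partIV (partI partIA_a (partIC partIA_b partIB partIB0)) partII
    (partIII (partIIb_of_partSG partSG))) partV)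

/-- `M(d) ≥ K d^(1/2+c)` for all `d ≥ 1` -/
theorem growth : ∃ c : ℝ, 0 < c ∧ ∃ K : ℝ, 0 < K ∧ ∀ d : ℕ, 1 ≤ d →
    ∃ (n : ℕ) (f : (Fin n → ℤˣ) → ℝ), IsBoolean f ∧ degree f ≤ d ∧
      K * (d : ℝ) ^ (1 / 2 + c) ≤ linearSum f := by
  obtain ⟨c, hc, K, hK, h⟩ := growth_bool
  refine ⟨c, hc, K, hK, fun d hd => ?_⟩
  obtain ⟨n, f, hf1, hf2, hf3⟩ := h d hd
  obtain ⟨g, hg1, hg2, hg3⟩ := exists_units hf1 hf2
  exact ⟨n, g, hg1, hg2, by rw [hg3]; exact hf3⟩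

end P047F
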