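import Mathlib

/-!
# P047: the definitions of the problem (Fourier coefficients, degree, `M(d)`)
-/

namespace Vale.Agent.P047Growth

/-- The cube `{-1,1}^n`, a finite set of points of `ℝ^n`. -/
noncomputable def cube (n : ℕ) : Finset (Fin n → ℝ) := Fintype.piFinset fun _ => {-1, 1}

/-- `f` is Boolean: it takes values in `{-1,1}` on `{-1,1}^n` (its values elsewhere are never
used). -/
def Boolean {n : ℕ} (f : (Fin n → ℝ) → ℝ) : Prop := ∀ x ∈ cube n, f x = -1 ∨ f x = 1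

/-- The Fourier coefficient `f^(S) = E[f(X) ∏_{i ∈ S} X_i]`, where `X` is uniform on the `2^n`
points of `{-1,1}^n`. -/
noncomputable def coeff {n : ℕ} (f : (Fin n → ℝ) → ℝ) (S : Finset (Fin n)) : ℝ :=
  (∑ x ∈ cube n, f x * ∏ i ∈ S, x i) / 2 ^ n

/-- The degree `deg(f) = max {|S| : f^(S) ≠ 0}`. -/
noncomputable def deg {n : ℕ} (f : (Fin n → ℝ) → ℝ) : ℕ :=
  sSup {k : ℕ | ∃ S : Finset (Fin n), coeff f S ≠ 0 ∧ S.card = k}

/-- The set of the sums `∑_i f^({i})`, for `n ≥ 1` and Boolean `f` on `{-1,1}^n` with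
`deg(f) ≤ d`. -/
def linearSums (d : ℕ) : Set ℝ :=
  {s | ∃ (n : ℕ) (f : (Fin n → ℝ) → ℝ), 1 ≤ n ∧ Boolean f ∧ deg f ≤ d ∧ s = ∑ i, coeff f {i}}

/-- `M(d)`, the supremum of these sums. -/
noncomputable def M (d : ℕ) : ℝ := sSup (linearSums d)

end Vale.Agent.P047Growth
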