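import Vale.Agent.Lib.P047F.I.Four

/-!
# P047: the classical bound `Σ_i f^({i}) ≤ I(f) ≤ deg f` for Boolean functions
-/

open Finset

namespace P047F

variable {ι : Type} [Fintype ι] [DecidableEq ι]

theorem upper_flip_sum (i : ι) (g : (ι → Bool) → ℝ) : ∑ x, g (r0b_flip i x) = ∑ x, g x :=
  Fintype.sum_equiv (Function.Involutive.toPerm (r0b_flip i) (r0b_flip_flip i))
    (fun x => g (r0b_flip i x)) g (fun x => rfl)

/-- the character sums of the difference in direction `i` -/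
theorem upper_diff (f : (ι → Bool) → ℝ) (i : ι) (T : Finset ι) :
    ∑ x, (f x - f (r0b_flip i x)) * ((chi T x : ℤ) : ℝ) =
      if i ∈ T then 2 * ∑ x, f x * ((chi T x : ℤ) : ℝ) else 0 := by
  have h1 : ∑ x, f (r0b_flip i x) * ((chi T x : ℤ) : ℝ) =
      ∑ x, f x * ((chi T (r0b_flip i x) : ℤ) : ℝ) := by
    rw [← upper_flip_sum i (fun x => f x * ((chi T (r0b_flip i x) : ℤ) : ℝ))]
    refine Finset.sum_congr rfl fun x _ => ?_
    simp only [r0b_flip_flip]
  simp only [sub_mul, Finset.sum_sub_distrib]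
  rw [h1]
  split_ifs with hi
  · simp only [r0b_chi_flip hi, Int.cast_neg, mul_neg, Finset.sum_neg_distrib]
    ring
  · simp only [r0b_chi_flip_not hi]
    ring

theorem upper_one {f : (ι → Bool) → ℝ} (hf : IsBool f) (i : ι) :
    ∑ x, f x * ((chi {i} x : ℤ) : ℝ) ≤
      ∑ T : Finset ι, (if i ∈ T then (∑ x, f x * ((chi T x : ℤ) : ℝ)) ^ 2 else 0) /
        2 ^ Fintype.card ι := by
  have h1 := upper_diff f i {i}
  rw [if_pos (Finset.mem_singleton_self i)] at h1
  have h2 : ∑ x, (f x - f (r0b_flip i x)) * ((chi {i} x : ℤ) : ℝ) ≤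
      ∑ x, (f x - f (r0b_flip i x)) ^ 2 / 2 := by
    refine Finset.sum_le_sum fun x _ => ?_
    have hc : ((chi {i} x : ℤ) : ℝ) = 1 ∨ ((chi {i} x : ℤ) : ℝ) = -1 := by
      have h := r0b_chi_sq {i} x
      rcases Int.isUnit_iff.1 (IsUnit.of_mul_eq_one _ h) with h | h
      · left; rw [h]; norm_num
      · right; rw [h]; norm_num
    rcases hf x with h3 | h3 <;> rcases hf (r0b_flip i x) with h4 | h4 <;>
      rcases hc with h5 | h5 <;> rw [h3, h4, h5] <;> norm_num
  have h3 := parseval (fun x => f x - f (r0b_flip i x))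
  rw [← Finset.sum_div, h3, h1] at h2
  simp only [upper_diff] at h2
  have h4 : ∑ T : Finset ι, (if i ∈ T then 2 * ∑ x, f x * ((chi T x : ℤ) : ℝ) else 0) ^ 2 =
      4 * ∑ T : Finset ι, (if i ∈ T then (∑ x, f x * ((chi T x : ℤ) : ℝ)) ^ 2 else 0) := by
    rw [Finset.mul_sum]
    refine Finset.sum_congr rfl fun T _ => ?_
    split_ifs
    · ring
    · ring
  rw [h4] at h2
  rw [← Finset.sum_div]
  have h5 : 4 * (∑ T : Finset ι, (if i ∈ T then (∑ x, f x * ((chi T x : ℤ) : ℝ)) ^ 2 else 0)) /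
      2 ^ Fintype.card ι / 2 = 2 * ((∑ T : Finset ι,
        (if i ∈ T then (∑ x, f x * ((chi T x : ℤ) : ℝ)) ^ 2 else 0)) / 2 ^ Fintype.card ι) := by
    ring
  rw [h5] at h2
  linarith

/-- the sum of the linear coefficients of a Boolean function is at most its degree -/
theorem S1_le_deg {f : (ι → Bool) → ℝ} (hf : IsBool f) {d : ℕ} (hd : DegLe d f) :
    S1 f ≤ d := by
  have hp : (0 : ℝ) < 2 ^ Fintype.card ι := by positivity
  have h1 : ∑ x, f x * ∑ i : ι, ((chi {i} x : ℤ) : ℝ) =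
      ∑ i : ι, ∑ x, f x * ((chi {i} x : ℤ) : ℝ) := by
    rw [Finset.sum_comm]
    exact Finset.sum_congr rfl fun x _ => Finset.mul_sum _ _ _
  unfold S1
  rw [h1, div_le_iff₀ hp]
  have h2 : ∑ i : ι, ∑ x, f x * ((chi {i} x : ℤ) : ℝ) ≤ ∑ i : ι,
      ∑ T : Finset ι, (if i ∈ T then (∑ x, f x * ((chi T x : ℤ) : ℝ)) ^ 2 else 0) /
        2 ^ Fintype.card ι := Finset.sum_le_sum fun i _ => upper_one hf i
  refine h2.trans ?_
  rw [Finset.sum_comm]
  have h3 : ∀ T : Finset ι, ∑ i : ι, (if i ∈ T then (∑ x, f x * ((chi T x : ℤ) : ℝ)) ^ 2 else 0) /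
        2 ^ Fintype.card ι ≤ (d : ℝ) * ((∑ x, f x * ((chi T x : ℤ) : ℝ)) ^ 2 /
          2 ^ Fintype.card ι) := by
    intro T
    rw [← Finset.sum_div, Finset.sum_ite_mem, Finset.univ_inter, Finset.sum_const, nsmul_eq_mul,
      mul_div_assoc]
    by_cases hT : T.card ≤ d
    · exact mul_le_mul_of_nonneg_right (by exact_mod_cast hT) (by positivity)
    · rw [hd T (not_le.1 hT)]
      simp
  refine (Finset.sum_le_sum fun T _ => h3 T).trans ?_
  rw [← Finset.mul_sum, ← Finset.sum_div, ← parseval f]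
  refine mul_le_mul_of_nonneg_left (le_of_eq ?_) (Nat.cast_nonneg d)
  have h4 : ∀ x, f x ^ 2 = 1 := by
    intro x
    rcases hf x with h | h <;> rw [h] <;> norm_num
  simp only [h4, Finset.sum_const, Finset.card_univ, nsmul_eq_mul, mul_one]
  simp [Fintype.card_bool]

end P047F
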