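import Vale.Agent.Lib.P047F.Final
import Vale.Agent.Lib.P047F.Upper
import Vale.Agent.Lib.P047F.GrowthDefs

/-!
# P047: transfer of the growth of `M(d)` to the definitions of `GrowthDefs`
-/

open Asymptotics Filter

namespace Vale.Agent.P047Growth

/-- the point of the cube given by a vector of truth values -/
def pt {n : ℕ} (b : Fin n → Bool) : Fin n → ℝ := fun i => if b i then -1 else 1

/-- the truth values of a point of the cube -/
noncomputable def bt {n : ℕ} (x : Fin n → ℝ) : Fin n → Bool := fun i => decide (x i = -1)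

theorem bt_pt {n : ℕ} (b : Fin n → Bool) : bt (pt b) = b := by
  funext i
  unfold bt pt
  cases b i <;> norm_num

theorem pt_mem {n : ℕ} (b : Fin n → Bool) : pt b ∈ cube n := by
  unfold cube pt
  rw [Fintype.mem_piFinset]
  intro i
  cases b i <;> simp

theorem pt_bt {n : ℕ} {x : Fin n → ℝ} (hx : x ∈ cube n) : pt (bt x) = x := by
  unfold cube at hx
  rw [Fintype.mem_piFinset] at hx
  funext i
  have h := hx i
  simp only [Finset.mem_insert, Finset.mem_singleton] at h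
  unfold pt bt
  rcases h with h | h <;> rw [h] <;> norm_num

theorem sum_cube {n : ℕ} (g : (Fin n → ℝ) → ℝ) : ∑ x ∈ cube n, g x = ∑ b, g (pt b) := by
  refine Finset.sum_nbij' bt pt (fun x _ => Finset.mem_univ _) (fun b _ => pt_mem b)
    (fun x hx => pt_bt hx) (fun b _ => bt_pt b) (fun x hx => ?_)
  rw [pt_bt hx]

theorem prod_pt {n : ℕ} (S : Finset (Fin n)) (b : Fin n → Bool) :
    ∏ i ∈ S, pt b i = ((P047F.chi S b : ℤ) : ℝ) := by
  unfold P047F.chi pt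
  push_cast
  refine Finset.prod_congr rfl fun i _ => ?_
  cases b i <;> simp

theorem coeff_eq {n : ℕ} (f : (Fin n → ℝ) → ℝ) (S : Finset (Fin n)) :
    coeff f S = (∑ b, f (pt b) * ((P047F.chi S b : ℤ) : ℝ)) / 2 ^ n := by
  unfold coeff
  rw [sum_cube]
  simp only [prod_pt]

theorem deg_le_iff {n : ℕ} (f : (Fin n → ℝ) → ℝ) (d : ℕ) :
    deg f ≤ d ↔ ∀ S : Finset (Fin n), d < S.card → coeff f S = 0 := by
  constructor
  · intro h S hS
    by_contra hne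
    have hb : BddAbove {k : ℕ | ∃ S : Finset (Fin n), coeff f S ≠ 0 ∧ S.card = k} := by
      refine ⟨n, ?_⟩
      rintro k ⟨S, -, rfl⟩
      simpa using S.card_le_univ
    have h1 : S.card ≤ deg f := le_csSup hb ⟨S, hne, rfl⟩
    omega
  · intro h
    refine csSup_le' ?_
    rintro k ⟨S, hS, rfl⟩
    by_contra hk
    exact hS (h S (not_le.1 hk))

theorem degLe_iff {n : ℕ} (f : (Fin n → ℝ) → ℝ) (d : ℕ) :
    deg f ≤ d ↔ P047F.DegLe d (fun b => f (pt b)) := by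
  rw [deg_le_iff]
  refine forall_congr' fun S => imp_congr_right fun _ => ?_
  rw [coeff_eq, div_eq_zero_iff]
  simp

theorem sum_coeff {n : ℕ} (f : (Fin n → ℝ) → ℝ) :
    ∑ i, coeff f {i} = P047F.S1 (fun b => f (pt b)) := by
  unfold P047F.S1
  simp only [coeff_eq]
  rw [← Finset.sum_div, Fintype.card_fin, Finset.sum_comm]
  congr 1
  exact Finset.sum_congr rfl fun b _ => (Finset.mul_sum _ _ _).symm

theorem isBool {n : ℕ} {f : (Fin n → ℝ) → ℝ} (hf : Boolean f) :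
    P047F.IsBool (fun b => f (pt b)) := fun b => (hf (pt b) (pt_mem b)).symm

theorem le_of_mem {d : ℕ} {s : ℝ} (hs : s ∈ linearSums d) : s ≤ d := by
  obtain ⟨n, f, -, hf, hd, rfl⟩ := hs
  rw [sum_coeff]
  exact P047F.S1_le_deg (isBool hf) ((degLe_iff f d).1 hd)

theorem growth : ∃ c : ℝ, 0 < c ∧ ∃ K : ℝ, 0 < K ∧ ∀ d : ℕ, 1 ≤ d →
    ∃ (n : ℕ) (f : (Fin n → ℝ) → ℝ), 1 ≤ n ∧ Boolean f ∧ deg f ≤ d ∧
      K * (d : ℝ) ^ (1 / 2 + c) ≤ ∑ i, coeff f {i} := by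
  obtain ⟨c, hc, K, hK, h⟩ := P047F.growth_bool
  refine ⟨c, hc, K, hK, fun d hd => ?_⟩
  obtain ⟨n, f, hf1, hf2, hf3⟩ := h d hd
  have hf : (fun b => f (bt (pt b))) = f := by
    funext b
    rw [bt_pt]
  refine ⟨n, fun x => f (bt x), ?_, fun x _ => (hf1 (bt x)).symm, ?_, ?_⟩
  · rcases Nat.eq_zero_or_pos n with rfl | hn
    · exfalso
      have hd' : (0 : ℝ) < d := by exact_mod_cast hd
      have h1 : 0 < K * (d : ℝ) ^ (1 / 2 + c) := by positivity
      have h2 : P047F.S1 f = 0 := by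
        unfold P047F.S1
        simp
      linarith
    · exact hn
  · rw [degLe_iff, hf]
    exact hf2
  · rw [sum_coeff, hf]
    exact hf3

theorem no_const {c : ℝ} (hc : 0 < c) {K : ℝ} (hK : 0 < K) (C : ℝ) :
    ∀ᶠ d : ℕ in atTop, C * √(d : ℝ) < K * (d : ℝ) ^ (1 / 2 + c) := by
  have h1 := (tendsto_rpow_atTop hc).comp tendsto_natCast_atTop_atTop
  filter_upwards [h1.eventually_gt_atTop (C / K), eventually_ge_atTop 1] with d hd1 hd2
  have hd' : (0 : ℝ) < d := by exact_mod_cast hd2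
  have h2 : C < K * (d : ℝ) ^ c := by
    have h3 : C / K < (d : ℝ) ^ c := hd1
    rw [div_lt_iff₀ hK] at h3
    linarith
  have h4 : 0 < √(d : ℝ) := Real.sqrt_pos.2 hd'
  rw [Real.rpow_add hd', ← Real.sqrt_eq_rpow]
  calc C * √(d : ℝ) < K * (d : ℝ) ^ c * √(d : ℝ) := mul_lt_mul_of_pos_right h2 h4
    _ = K * (√(d : ℝ) * (d : ℝ) ^ c) := by ring

theorem main :
    (¬ ∀ (n : ℕ) (f : (Fin n → ℝ) → ℝ), 1 ≤ n → Boolean f →
      ∑ i, coeff f {i} ≤ √(deg f : ℝ)) ∧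
    (¬ ∃ C : ℝ, ∀ (n : ℕ) (f : (Fin n → ℝ) → ℝ), 1 ≤ n → Boolean f →
      ∑ i, coeff f {i} ≤ C * √(deg f : ℝ)) ∧
    (∀ d : ℕ, IsLUB (linearSums d) (M d)) ∧
    (¬ M =O[atTop] fun d : ℕ => √(d : ℝ)) ∧
    (∃ c : ℝ, 0 < c ∧ (fun d : ℕ => (d : ℝ) ^ (1 / 2 + c)) =O[atTop] M) := by
  obtain ⟨c, hc, K, hK, h⟩ := growth
  have key : ∀ C : ℝ, 0 ≤ C → ∃ (n : ℕ) (f : (Fin n → ℝ) → ℝ), 1 ≤ n ∧ Boolean f ∧
      C * √(deg f : ℝ) < ∑ i, coeff f {i} := by
    intro C hC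
    obtain ⟨d, hd1, hd2⟩ := ((no_const hc hK C).and (eventually_ge_atTop 1)).exists
    obtain ⟨n, f, hn, hf, hd, hsum⟩ := h d hd2
    refine ⟨n, f, hn, hf, lt_of_le_of_lt ?_ (lt_of_lt_of_le hd1 hsum)⟩
    exact mul_le_mul_of_nonneg_left (Real.sqrt_le_sqrt (by exact_mod_cast hd)) hC
  have hlub : ∀ d : ℕ, IsLUB (linearSums d) (M d) := by
    intro d
    refine isLUB_csSup ?_ ⟨d, fun s hs => le_of_mem hs⟩
    refine ⟨_, 1, fun _ => 1, le_refl 1, fun _ _ => Or.inr rfl, ?_, rfl⟩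
    rw [degLe_iff]
    intro T hT
    have hT' : T.Nonempty := Finset.card_pos.1 (by omega)
    obtain ⟨i, hi⟩ := hT'
    simp only [one_mul]
    refine P047F.r0b_sum_zero i _ fun x => ?_
    rw [P047F.r0b_chi_flip hi]
    push_cast
    ring
  have hM : ∀ d : ℕ, 1 ≤ d → K * (d : ℝ) ^ (1 / 2 + c) ≤ M d := by
    intro d hd
    obtain ⟨n, f, hn, hf, hdeg, hsum⟩ := h d hd
    exact hsum.trans ((hlub d).1 ⟨n, f, hn, hf, hdeg, rfl⟩)
  refine ⟨fun hall => ?_, fun hall => ?_, hlub, fun hO => ?_, c, hc, ?_⟩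
  · obtain ⟨n, f, hn, hf, hlt⟩ := key 1 zero_le_one
    rw [one_mul] at hlt
    exact absurd (hall n f hn hf) (not_le.2 hlt)
  · obtain ⟨C, hC⟩ := hall
    obtain ⟨n, f, hn, hf, hlt⟩ := key (max C 0) (le_max_right _ _)
    have h1 : C * √(deg f : ℝ) ≤ max C 0 * √(deg f : ℝ) :=
      mul_le_mul_of_nonneg_right (le_max_left _ _) (Real.sqrt_nonneg _)
    exact absurd ((hC n f hn hf).trans h1) (not_le.2 hlt)
  · obtain ⟨C, hC⟩ := hO.bound
    obtain ⟨d, ⟨hd1, hd2⟩, hd3⟩ := ((hC.and (no_const hc hK C)).and (eventually_ge_atTop 1)).exists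
    rw [Real.norm_of_nonneg (Real.sqrt_nonneg _)] at hd1
    have h1 := (hM d hd3).trans ((le_abs_self _).trans ((Real.norm_eq_abs _).symm.le.trans hd1))
    exact absurd h1 (not_le.2 hd2)
  · refine IsBigO.of_bound K⁻¹ ?_
    filter_upwards [eventually_ge_atTop 1] with d hd
    have h0 : (0 : ℝ) ≤ (d : ℝ) ^ (1 / 2 + c) := by positivity
    rw [Real.norm_of_nonneg h0, inv_mul_eq_div, le_div_iff₀ hK, mul_comm]
    exact (hM d hd).trans ((le_abs_self _).trans (Real.norm_eq_abs _).symm.le)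

end Vale.Agent.P047Growth
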