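import Vale.Agent.Lib.P047F.Defs

/-!
# P047: interface of the parts (statements as Props)
-/

open Finset Filter

namespace P047F

/-- Part I: cover (entropy) theorem for the cube, `n → ∞`, `m = ⌊73 n/200⌋` -/
def PartI : Prop :=
  ∀ᶠ n : ℕ in atTop,
    Good (monoA (Fin n) (mm n)) (Real.exp (-(n : ℝ) / 1000)) (1 / 1000)

/-- Part II: existence of balanced choices with full support, increments `±1` or `0, ±2` -/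
def PartII : Prop :=
  ∃ n0 : ℕ, ∀ n : ℕ, n0 ≤ n → ∀ (Q J : Type) [Fintype Q] [Fintype J] (A : Q → J → ℤ),
    Fintype.card Q = 2 ^ n → Good A (Real.exp (-(n : ℝ) / 1000)) (1 / 1000) →
    ∀ a : Q → ℕ, (∀ x, a x = 1 ∨ a x = 2) → (∀ j, Even (∑ x, (a x : ℤ) * A x j)) →
    ∃ z : Q → ℤ, (∀ x, |z x| ≤ a x ∧ Even (z x - a x)) ∧ ∀ j, ∑ x, z x * A x j = 0

/-- Part III: nice valid colourings -/
def PartIII : Prop :=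
  ∀ κ : ℝ, 0 < κ → κ ≤ 1 → ∃ n0 : ℕ, ∀ n : ℕ, n0 ≤ n →
    ∀ (Q J : Type) [Fintype Q] [Fintype J] (A : Q → J → ℤ),
    Fintype.card Q = 2 ^ n → Good A (Real.exp (-(n : ℝ) / 1000)) (1 / 1000) →
    ∀ Y : Finset Q, Nice A Y κ → (∀ j, Even (∑ x ∈ Y, A x j)) →
    ∀ s : Q → ℤ, (∀ x, s x = 1 ∨ s x = -1) →
    ∃ z : Q → ℤ, (∀ x ∈ Y, z x = 1 ∨ z x = -1) ∧ (∀ x, x ∉ Y → z x = 0) ∧
      (∀ j, ∑ x, z x * A x j = 0) ∧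
      (∀ Y' : Finset Q, (∀ x ∈ Y, z x = s x → x ∈ Y') → Nice A Y' (κ / 5)) ∧
      (∀ Y' : Finset Q, (∀ x ∈ Y, z x = - s x → x ∈ Y') → Nice A Y' (κ / 5))

/-- Part IV: rounding -/
def PartIV : Prop :=
  ∀ η : ℝ, 0 < η → ∃ n0 : ℕ, ∀ n : ℕ, n0 ≤ n → ∀ F : (Fin n → Bool) → ℝ,
    (∀ x, |F x| ≤ 1) → DegLe (dd n) F →
    ∃ f : (Fin n → Bool) → ℝ, IsBool f ∧ DegLe (dd n) f ∧ S1 F - η * Real.sqrt n ≤ S1 f

/-- Part V: bounded polynomial close to majority -/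
def PartV : Prop :=
  ∀ η : ℝ, 0 < η → ∃ n0 : ℕ, ∀ n : ℕ, n0 ≤ n → ∃ F : (Fin n → Bool) → ℝ,
    (∀ x, |F x| ≤ 1) ∧ DegLe (dd n) F ∧ (1 - η) * Real.sqrt (2 * n / Real.pi) ≤ S1 F

/-- Part VI: amplification by composition -/
def PartVI : Prop :=
  (∃ (n d : ℕ) (f : (Fin n → Bool) → ℝ), IsBool f ∧ DegLe d f ∧
      Real.sqrt ((d : ℝ) + 1) < S1 f) →
  ∃ c : ℝ, 0 < c ∧ ∃ K : ℝ, 0 < K ∧ ∀ d : ℕ, 1 ≤ d →
    ∃ (n : ℕ) (f : (Fin n → Bool) → ℝ), IsBool f ∧ DegLe d f ∧ K * (d : ℝ) ^ (1 / 2 + c) ≤ S1 f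

end P047F
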